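import Vale.Agent.N352.Y.Ds
import Vale.Agent.N352.Bo.Thm

/-!
# N352, block Y: the Borchers class under all regularity conditions
-/

set_option linter.all false

namespace Vale.Agent.N352.H

open P352.GF F
open UniformSpace (Completion)

noncomputable section

universe u

section up

variable {H : Type*} [NormedAddCommGroup H] [InnerProductSpace ℂ H] [CompleteSpace H]
  {K : Dh.Frame H} {S : Dh.Theory K}
  {D : Type u} {E : Type*} [NormedAddCommGroup D] [InnerProductSpace ℂ D]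
  [NormedAddCommGroup E] [InnerProductSpace ℂ E] {Q : Theory D} {φ : D →ₗᵢ[ℂ] H} {G : D → D}
  {Γ : Completion D →L[ℂ] Completion D}
  {P : Theory E} {k : E →ₗᵢ[ℂ] Completion D} {G' : E → E} {e : Fld D → Fld E}

theorem ext_mem0 (x : Dn.Ext Q Γ P k G' e) {w : D} (c : Dz.Cyc Q w) : ∃ v, k v = w :=
  (c (N352.cy Q ⊓ (LinearMap.range k.toLinearMap).comap
    (Completion.toComplₗᵢ (𝕜 := ℂ)).toLinearMap) ⟨cyc_vac, _, x.vac⟩
    fun A f v s t ⟨a, v', b⟩ => ⟨Cyc.fld a s t, _, x.agree A f v' v s t a b⟩).2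

variable (h : Rl S Q φ G) {j : Completion D ≃ₗᵢ[ℂ] H} (c : ∀ v : D, j v = φ v)
include h c

/-- the extension in the Hilbert space -/
theorem Rl.ext_up0 (g : j.conjStarAlgEquiv Γ = K.Γ) (x : Dn.Ext Q Γ P k G' e) :
    ∃ S' : Dh.Theory K, Rl S' P (j.toLinearIsometry.comp k) G' ∧
      (∀ B, S.fld B → ∃ C, S'.fld C ∧ Dh.Agr S B C) ∧
      (∀ B, P.fld B → S'.fld (N352.H.up (j.toLinearIsometry.comp k) B)) ∧
      (∀ A B, Q.fld B → Eqv φ A B → Dh.Agr S A (N352.H.up (j.toLinearIsometry.comp k) (e B))) ∧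
      ∀ R : Dh.Theory K, R.dom = S'.dom → (∀ A, S'.fld A → R.fld A) →
        ∃ R', Rl R R' (j.toLinearIsometry.comp k) G' ∧ Dz.IsEnl P R' := by
  set ψ := j.toLinearIsometry.comp k
  have y := Z.gr.2 x.toGr
  have d : DenseRange ψ := j.surjective.denseRange.comp ((N352.G.X.cs_dense Q).mono (by
    rintro _ ⟨w, rfl⟩
    exact ext_mem0 x w.2)) j.continuous
  have q : Lk K (LinearMap.range ψ.toLinearMap) ψ P.vac G' P.U :=
    ⟨fun v => ⟨v, rfl⟩, fun _ m => m, ((congrArg j x.vac).trans (h.om c)).symm,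
      fun v => (g ▸ cj j Γ _).trans (congrArg j (x.G v).symm), fun s L a v hs hL =>
        (h.ue c hs hL a _).symm.trans (congrArg j (x.U s L a v hs hL).symm)⟩
  have a : ∀ A B, Q.fld B → Eqv φ A B → Dh.Agr S A (N352.H.up ψ (e B)) := fun A B b z f v t p => by
    obtain ⟨w, rfl, u⟩ := h.cyc_dn p
    obtain ⟨v, r⟩ := ext_mem0 x u
    rw [z f w t, ← c, ← c, ← r, ← x.agree B f v w b t u r]
    exact up_eq ψ _ f v
  refine ⟨_, sys_rl q y d, fun A s => ?_, fun _ => sys_up q _ d, a, enl q _ d⟩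
  obtain ⟨B, b, z⟩ := h.dn A s
  exact ⟨_, sys_up q _ d (x.fld B b), a A B b z⟩

theorem Rl.ds_up {t t' A B} {P : Theory D} (y : ∀ m n, Eqv φ (t m n) (t' m n))
    (k : Y.Ds P Q G t') (b : P.fld B) (a : Eqv φ A B) : Dh.Desc S t A := by
  obtain ⟨n, e, C, p, q⟩ := k B b
  choose m k d z α i P P' u w using p
  refine desc_of (ι := Σ l, Fin (m l)) (fun l => e l.1) (fun l => rh (Z.new (k l.1 l.2)))
    (fun l => d l.1 l.2) (fun l => z l.1 l.2) (fun l => α l.1 l.2) (fun l => i l.1 l.2)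
    (fun l b => upj j φ (P l.1 l.2 b)) (fun l b => upj j φ (P' l.1 l.2 b))
    (fun l => h.prim_up c y (fun _ => upj_eq _ _ _) (fun _ => upj_eq _ _ _) (Z.prim (u l.1 l.2)))
    fun f r => h.all.2 fun v => ?_
  rw [a f v r, q f v r, map_sum, Fintype.sum_sigma]
  refine Finset.sum_congr rfl fun l _ => (c _).symm.trans ((congrArg j (w l f v r)).trans ?_)
  simp only [map_sum, map_smul, upj, lift_eq]

end up

variable {H : Type u} [NormedAddCommGroup H] [InnerProductSpace ℂ H] [CompleteSpace H]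
  {K : Dh.Frame H} {S : Dh.Theory K} {T : Ix → Ix → Fld H} {Q : Theory S.dom} {G T' Γ N'}
  (R : Rl S Q S.dom.subtypeₗᵢ G) (g : (iso _ R.dr).conjStarAlgEquiv Γ = K.Γ)
  (x : ∀ m n, Eqv S.dom.subtypeₗᵢ (T m n) (T' m n)) (y : Dn.Hz Q G T' Γ N')
include R g x y

/-- **the conformal extension** -/
theorem ext8 : ∃ A, Dh.Stress S A ∧ Dh.Same S T A ∧
    ∃ (P : Dh.Theory K) (S' t : Ix → Ix → Fld H), (∀ B, S.fld B → ∃ C, P.fld C ∧ Dh.Agr S B C) ∧
      (∀ m n, Dh.Agr S (A m n) (S' m n)) ∧ Dh.Stress P S' ∧ Dh.Fin' P ∧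
      (∀ v ∈ P.dom, Dh.Cyc P v) ∧ ∀ R : Dh.Theory K, R.dom = P.dom → (∀ A, P.fld A → R.fld A) →
        Dh.Conf R S' t ∧ Dh.PGen R S' ∧ ∀ A, P.fld A → Dh.Desc R t A := by
  obtain ⟨s, a, b, E, _, _, P, k, G', e, t, c, d, m, l, p, z⟩ := Y.ext7 y
  obtain ⟨S', R', q, f, w, v⟩ := R.ext_up0 (iso_coe _ R.dr) g c
  choose A o i using fun m n => R.up _ (Q.bose_fld _ (a.1 m n))
  have j := fun m n => up_eqv ((iso _ R.dr).toLinearIsometry.comp k) (e (s m n))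
  have d' := fun m n => P.bose_fld _ (d.1 m n)
  exact ⟨A, ((R.stress i).2 ⟨Z.st a, o⟩).1, (R.same x i).2 b, S', _, fun m n => up _ (t m n), q,
    fun m n => w _ _ (Q.bose_fld _ (a.1 m n)) (i m n),
    ((R'.stress j).2 ⟨Z.stress.2 d, fun m n => f _ (d' m n)⟩).1, R'.fin.2 ⟨Z.mfa.2 m, Z.fsl.2 l⟩,
    R'.all.2 fun v => R'.cyc_up fun M a b => p M a b ▸ Submodule.mem_top,
    fun R a b => have ⟨_, r, x⟩ := v R a b
      have z := z _ ⟨x.1, x.2, x.3, x.4⟩ (Z.gr.1 r.gr)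
      ⟨r.conf_up (iso_coe _ r.dr) j (fun _ _ => up_eqv _ _) (fun m n => x.3 _ (d' m n)) (Z.cf z.1),
        (r.pgen j).2 (Z.pgen.2 z.2.1), fun A u => have ⟨_, b, a⟩ := R'.dn A u
          r.ds_up (iso_coe _ r.dr) (fun _ _ => up_eqv _ _) z.2.2 b a⟩⟩

/-- **the Borchers class is conformal** -/
theorem cinv (f : Dh.Fin' S) : ∃ R t, Dh.CInv S R T t ∧ ∃ (P : Dh.Theory K) (U : _),
    (∀ B, S.fld B → ∃ C, P.fld C ∧ Dh.Agr S B C) ∧ Dh.Fin' P ∧ (∀ v, v ∈ R.dom ↔ Dh.Cyc P v) ∧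
      P.dom = R.dom ∧ Dh.Conf P U t ∧ ∀ A, P.fld A → R.fld A ∧ Dh.Desc R t A := by
  obtain ⟨A, a, s, P, S', t, e, g, -, l, c, z⟩ := ext8 R g x y
  obtain ⟨R, d, k, i⟩ := bor_of e fun _ _ _ _ r r' t t' s _ m => Bo.rel_loc e f r r' t t' s m
  have ⟨x, y, w⟩ := z R d i
  exact ⟨R, t, ⟨k, stress_bor x k, x.poincare y, chg s (fun m n => (a.1 m n).1) g x.same
    (fun v c => d ▸ cyc_dom e c), _, x⟩, P, S', e, l,
    fun v => ⟨fun m => c v (d ▸ m), fun m => d ▸ cyc_in m⟩, d.symm, (z P rfl fun _ p => p).1,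
    fun A p => ⟨i A p, w A p⟩⟩

end

end Vale.Agent.N352.H
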