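import Vale.Agent.N352.Y.Wt
import Vale.Agent.N352.Y.Hx

/-!
# N352, block Y: the theorem
-/

set_option linter.all false

namespace Vale.Agent.N352.H

open P352.GF F

universe u

/-- **the theorem** -/
theorem thr (H : Type u) [NormedAddCommGroup H] [InnerProductSpace ℂ H] [CompleteSpace H] :
    Dh.Thr H where
  inv K S T h :=
    have ⟨_, _, _, _, _, R, g, x, y⟩ := hyq_dn h
    cinv R g x y h.finite
  conf K S T h r := by
    obtain ⟨Q, G, T', Γ, N', R, g, x, y⟩ := hyq_dn h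
    have c := iso_coe _ R.dr
    obtain ⟨t, a⟩ := Y.conf6 y (R.mxq_dn c g r)
    exact ⟨_, R.conf_up c x (fun _ _ => up_eqv _ _) (fun m n => Q.bose_fld _ (y.4.1 m n)) (Z.cf a)⟩
  cnt _ _ _ := cnt_dn
  uni := uni
  der K S m v f c := by
    obtain ⟨Q, G, R⟩ := ex_rl S
    obtain ⟨v, rfl, c'⟩ := R.cyc_dn c
    have d := R.dd f
    rw [R.dv d m c']
    exact ⟨R.cyc_up (d m v c').1, R.der d m c'⟩

end Vale.Agent.N352.H
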