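import Vale.Agent.N352.Y.Thm
import Vale.Agent.N352.DefQ

/-!
# N352, block Y: the theorem, with the alternatives in the hypotheses
-/

set_option linter.all false

namespace Vale.Agent.N352.H

open P352.GF F

universe u

variable {H : Type u} [NormedAddCommGroup H] [InnerProductSpace ℂ H] [CompleteSpace H]
  {K : Dh.Frame H} {S : Dh.Theory K} {N : Set V → VonNeumannAlgebra H} {T : Ix → Ix → Fld H}

theorem hyq_of (h : Dh.Hyr S T) (r : Dh.Rgl S T) : Dh.Hyq S T :=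
  ⟨h.1, h.2, h.3.imp_right fun k => k.elim id (uni K), h.4.elim id (cnt_dn h.1 h.2), r⟩

/-- nets: the scalars of the extensions that are affiliated to the dual net are enough -/
theorem conf_net (h : Dh.Hyq S T) (p : Dh.Net K N) (q : Dh.Aff S N ∨ Dh.Rel S N)
    (r : Dh.Max S N) : ∃ t, Dh.Conf S T t := by
  obtain ⟨Q, G, R⟩ := ex_rl S
  choose T' a x b using fun m n => R.rep (h.1.1 m n).1
  obtain ⟨Γ, g⟩ := p_sur (iso _ R.dr).conjStarAlgEquiv K.Γ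
  obtain ⟨N', n⟩ := ex_dn (iso _ R.dr) N
  have c := iso_coe _ R.dr
  have y : Dn.Hy Q G T' Γ N' := by
    refine ⟨Z.gr.1 R.gr, R.even,
      Z.stress.1 ((R.stress x).1 ⟨h.1, fun m n => b m n (h.1.1 m n)⟩).1,
      Z.pgen.1 ((R.pgen x).1 h.2), h.3.imp (fun ⟨J, v⟩ => ?_) (R.ivac c),
      .inr ((R.fin.1 h.4).imp Z.mfa.1 Z.fsl.1), Z.net.1 ((R.net c n g).1 p),
      q.imp (fun k => Z.aff.1 ((R.aff c n).1 k)) fun k => Z.rel.1 ((R.rel c n g).1 k)⟩
    choose J' a' y b' using fun m => R.rep (v.1 m).1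
    exact ⟨J', Z.vir.1 ((R.vir x y).1 ⟨v, fun m => b' m (v.1 m)⟩).1⟩
  obtain ⟨t, a, -⟩ := (N352.K.thm _ S.dom).conf Q G T' Γ N' y (R.max_dn c n g r)
  exact ⟨_, R.conf_up c x (fun _ _ => up_eqv _ _) (fun m n => Q.bose_fld _ (y.3.1 m n)) (Z.cf a)⟩

variable (H) in
/-- **the theorem** -/
theorem thq : Dh.Thq H where
  inv K S T h r :=
    have ⟨R, t, c, P, _, a, b, d, e, _, f⟩ := (thr H).inv K S T (hyq_of h r)
    ⟨R, t, c, P, a, b, d, e, f⟩
  conf K S T h r := r.elim (fun ⟨a, b⟩ => (thr H).conf K S T (hyq_of h a) b)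
    fun ⟨N, a, b, c⟩ => conf_net (hyq_of h (.net N ⟨a, b⟩)) a b c

/-- **the hypotheses can be satisfied** -/
theorem wiq : ∃ (H : Type) (_ : NormedAddCommGroup H) (_ : InnerProductSpace ℂ H)
    (_ : CompleteSpace H), Dh.Wiq H := by
  obtain ⟨H, _, _, _, K, Q, R, T, J, N, _, h, m, v, u, c, n, e, s, -, -, -, z⟩ := wir
  exact ⟨H, _, _, _, K, Q, R, T, J, N, ⟨h.1, h.2, .inl ⟨J, v⟩, .inl h.4⟩, v, uni K u, u, h.4, c, n,
    e, s, m, ⟨fun P L x => m P L x.1⟩, z⟩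

end Vale.Agent.N352.H
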