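import Vale.Agent.N352.Y.Top

/-!
# N352, block Y: the primaries are local relative to all local fields
-/

set_option linter.all false

open Filter Topology

namespace Vale.Agent.N352.Y

noncomputable section

universe u v

section desc

open Vale.Agent.P352 Vale.Agent.P352.GF Vale.Agent.P352.BW Vale.Agent.P352.H246
open Vale.Agent.P352.H496 Vale.Agent.P352.H755 Vale.Agent.P352.H15
open Vale.Agent.P352X Vale.Agent.P352L Vale.Agent.P352R
open E E.Mn F
open T (Cm)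

variable {D : Type u} [NormedAddCommGroup D] [InnerProductSpace ℂ D]

/-- the fields of `P` are sums of derivatives of primaries of `R` -/
def Ds (P R : Theory D) (G : D → D) (t : Ix → Ix → Fld D) : Prop :=
  ∀ B, P.fld B → ∃ (n : ℕ) (e : Fin n → Bool) (C : Fin n → Fld D),
    (∀ j, Dn.DescS R G t (e j) (C j)) ∧ ∀ f v, IsTest f → B f v = ∑ j, C j f v

variable {c : Cf D} {R : Theory D} {τ : Ix → Ix → Fld D} (hF : FSL c.Q) (n : IsEnl c.Q R)
  (g : Gr R c.G) (h : DM R c.G τ)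
include hF n g h

theorem desc_mp {k : Rp} {Ψ : Fin k.n → Fld D} (m : IsMf c.Q k Ψ) (p : Bool)
    (q : ∀ a, if p then Fer c.Q c.G (Ψ a) else c.Q.bose (Ψ a)) (a : Fin k.n) :
    DescS R c.G τ p (Ψ a) := by
  refine h p k Ψ a (fun b => ?_) (fun b L f v hL hf => n.U ▸ m.2 b L f v hL hf) fun b => ?_
  · obtain ⟨F, C, h3⟩ := hF _ (m.1 b)
    have s : (R.bose (Ψ b) → c.Q.bose (Ψ b)) → Scl R (Ψ b) F C := fun y =>
      ⟨fun p => ⟨n.fld _ (h3.1 p).1, fun b => n.bose _ ((h3.1 p).2 (y b))⟩, n.U ▸ h3.2⟩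
    cases p
    · exact ⟨F, _, s fun _ => q b⟩
    have h1 : Fer c.Q c.G (Ψ b) := q b
    by_cases hb : R.bose (Ψ b)
    · refine ⟨∅, fun _ => Ψ b, fun _ => ⟨n.fld _ h1.1, id⟩, fun s f v _ hf => ?_⟩
      have z : c.G (Ψ b f (c.G (R.U s GF.one 0 v))) = 0 :=
        (smul_eq_zero.1 ((two_smul ℂ _).trans (add_eq_zero_iff_eq_neg.2
          ((g.bose _ f _ hb hf).symm.trans (h1.2 f _ hf))))).resolve_left two_ne_zero
      rwa [← g.bose _ f _ hb hf, g.inv] at z
    · exact ⟨F, _, s fun a => absurd a hb⟩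
  · cases p
    exacts [n.bose _ (q b), ⟨n.fld _ (q b).1, (q b).2⟩]

theorem desc_enl (hM : MfAll c.Q) : Ds c.Q R c.G τ := fun B hB => by
  obtain ⟨m, A, h1, h2⟩ := hM B hB
  choose k Φ a hΦ q using h1
  choose Ψ b1 b2 b3 b4 using fun i => parts c (hΦ i)
  let r := (Fintype.equivFin (Fin m × Bool)).symm
  refine ⟨_, fun j => (r j).2, fun j => Ψ (r j).1 (r j).2 (a _), fun j =>
    descs (Br.desc (desc_mp hF n g h (b1 _ _) _ (fun b => ?_) _)), fun f v hf => ?_⟩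
  · exact (r j).2.casesOn (motive := fun p => if p then Fer c.Q c.G (Ψ (r j).1 p b)
      else c.Q.bose (Ψ (r j).1 p b)) (b2 _ b) (b3 _ b)
  · rw [r.sum_comp fun j => Ψ j.1 j.2 (a _) f v, h2 f v hf, Fintype.sum_prod_type]
    exact Finset.sum_congr rfl fun i _ => by rw [q, b4 i _ f v hf]

omit hF n g h

theorem ds_of {P : Theory D} {G A} (a : GI.Ge P G A) (m : MfAll P) (l : FSL P)
    (n : P352R.P.IsEnl P R) (g : P352R.P.Gr R G) {S t} (k : Cm R G S t) : Ds P R G t := by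
  obtain ⟨S, L, hS, hL, rfl⟩ := k.1.form
  exact desc_enl (c := Tp.cf (Bg.ge.2 a)) l (Br.enl.1 n) (Br.gr.1 g)
    (core2 (Br.gr.1 g) hS hL k.1.impr.traceless k.2).1 m

end desc

open P352.GF P352R P352R.P F
open T (Cm)
open UniformSpace (Completion)

variable {D : Type u} [NormedAddCommGroup D] [InnerProductSpace ℂ D] {Q : Theory D} {G : D → D}
  {T : Ix → Ix → Fld D} {Γ : Completion D →L[ℂ] Completion D}
  {N : Set V → VonNeumannAlgebra (Completion D)}

open Gz (prep pgx tf st pc iv self ext_congr conf_congr)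

/-- **the local extension** -/
theorem ext7 (H : Dn.Hz Q G T Γ N) : ∃ S, Q.IsStress S ∧ Dn.Same Q T S ∧
    ∃ (E : Type u) (_ : NormedAddCommGroup E) (_ : InnerProductSpace ℂ E) (P : Theory E)
      (k : E →ₗᵢ[ℂ] Completion D) (G' : E → E) (e : Fld D → Fld E) (t : Ix → Ix → Fld E),
      Dn.Ext Q Γ P k G' e ∧ Dn.Stress P (fun m n => e (S m n)) ∧ Dn.MfA P ∧ Dn.FSL P ∧
        GI.Cy P ∧ ∀ R, Dn.IsEnl P R → Dn.Gr R G' → Dk.Cnf R G' (fun m n => e (S m n)) t ∧
          Dn.PGen R (fun m n => e (S m n)) ∧ Ds P R G' t := by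
  have g := gr.1 H.grading
  obtain ⟨h, A, m, l, a⟩ := prep H
  have o := self H m l
  obtain ⟨S, S', h1, h2, b, c, h5, M, E, P, G1, e, L, y, ⟨gn, q, q'⟩, s', sc, ds, r⟩ :=
    kit H m l a Q _ G T (rs_sect (h := h) (sect.1 o.sect)) g (st0_of g o.stress o.poincare)
      o.poincare fun m n => rf_xt (tf H m n)
  have s := fun m n => Q.bose_fld _ (b.bose m n)
  have u := (rs_rst (h := h)).ext (Γ := Γ) (fun _ => rf_xt) y
  have cg := fun m n f v (hf : IsTest f) => ext_congr y (rs_fld (h := h) (s m n))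
    ((rs Q h).bose_fld _ (h1.bose m n)) (fun f v hf => (io Q).injective
      ((rf_xt (s m n) f v hf).trans (h5 m n f v hf).symm)) hf v
  obtain ⟨A', a'⟩ := (GI.thm _).gen P G1 y.toGr (Subtype.ext ((y.G _).trans (by
    rw [y.vac]
    exact (pgx H _).trans (congrArg _ a.vac)))) (F.cy.1 gn.1) (Br.mfa.2 q) q'
  have pg := K.pgen_congr cg (K.pg_ext y (rs_cy (h := h)) a.der a'.der h1.bose h2 gn sc
    (K.cnf y.toGr (r P ⟨rfl, rfl, fun _ h => h, fun _ h => h⟩ y.toGr)).toConf)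
  have bo := fun m n => u.bos _ (b.bose m n)
  have pc' := pch_of a' (Br.mfa.2 q) bo pg
  exact ⟨S', b, c, E, _, _, P, _, G1, _, _, u, K.stress_congr s' bo cg, mfa.2 (Br.mfa.2 q),
    fsl.2 q', F.cy.1 gn.1, fun R u w => have r := r R (enl.1 u) (gr.1 w)
      (fun x => ⟨x, K.pg_enl a'.der pc' bo u x.toConf, ds_of a' q q' (enl.1 u) (gr.1 w) r⟩)
        (K.cnf (gr.1 w) ⟨conf_congr cg r.1, r.2⟩)⟩

end

end Vale.Agent.N352.Y
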