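import Vale.Agent.N352.H.Top
import Vale.Agent.N352.DefP

/-!
# N352, block Y: the regularity conditions in the Hilbert space
-/

set_option linter.all false

open Filter Topology

namespace Vale.Agent.N352.H

open P352.GF F P352R
open UniformSpace (Completion)

noncomputable section

universe u

variable {H : Type*} [NormedAddCommGroup H] [InnerProductSpace ℂ H] [CompleteSpace H]
  {K : Dh.Frame H} {E : Type u} [NormedAddCommGroup E] [InnerProductSpace ℂ E]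

/-- the translations are differentiable -/
def Dd (Q : Theory E) : Prop := ∀ m v, Dz.Cyc Q v → Dz.Cyc Q (Dn.Dv Q m v) ∧
  HasDerivAt (fun t : ℝ => Q.U 1 one (bas m t) v) (Dn.Dv Q m v) 0

theorem uni (K : Dh.Frame H) (u : Dh.Uniq K) : Dh.IVac K := fun z a s L hs hL => by
  obtain ⟨c, rfl⟩ := u z a
  have k := fun v w => K.unitary s L 0 v w hs hL
  have o := k K.Ω (c • K.Ω)
  rw [K.vac s L 0 hs hL] at o
  have p : inner ℂ (c • K.Ω) (K.U s L 0 (c • K.Ω)) = inner ℂ (c • K.Ω) (c • K.Ω) := by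
    rw [inner_smul_left, o, ← inner_smul_left]
  refine sub_eq_zero.1 (inner_self_eq_zero (𝕜 := ℂ).1 ?_)
  rw [inner_sub_left, inner_sub_right, inner_sub_right, k, p, ← inner_conj_symm (K.U _ _ _ _), p,
    inner_conj_symm, sub_self]

namespace Rl

variable {S R : Dh.Theory K} {Q P : Theory E} {φ : E →ₗᵢ[ℂ] H} {G : E → E} (h : Rl S Q φ G)
  {T : Ix → Ix → Fld H} {T' : Ix → Ix → Fld E}
include h

theorem dd (f : Dh.Fin' S) : Dd Q := fun m v c => by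
  have g := F.gr.1 (Z.gr.1 h.gr)
  have p := F.mfa.1 (Z.mfa.1 (h.fin.1 f).1)
  have l := F.fsl.1 (Z.fsl.1 (h.fin.1 f).2)
  obtain ⟨A, a⟩ := (GI.thm _).gen (rs Q (ok_of g p l)) _ (rs_gr g h.even) (rs_even g h.even) rs_cy
    (rs_mfa p) (rs_fsl l)
  have e := rs_dv (Bg.ge.2 a) m ⟨v, c⟩
  exact ⟨e ▸ Subtype.property _, e ▸ rs_der (Bg.ge.2 a) m ⟨v, c⟩⟩

theorem ana : Dh.Ana S ↔ Dn.Ana Q := by
  have k : ∀ {A A' B B' f}, Eqv φ A B → Eqv φ A' B' → IsTest f → ∀ n : ℕ,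
      ‖(fun w => A f w + A' (Dh.bar f) w)^[n] K.Ω‖ = ‖(fun w => B f w + B' (bar f) w)^[n] Q.vac‖ :=
    fun {A A' B B' f} a a' t n => by
      rw [h.vac, ← φ.norm_map]
      exact congrArg _ ((Function.Semiconj.iterate_right (f := φ) (fun v => (map_add φ _ _).trans
        (congrArg₂ _ (a f v t) (a' _ v (t_bar t))).symm) n).eq _).symm
  refine ⟨fun x B B' f b d i => ?_, fun x A A' f s d i => ?_⟩
  · obtain ⟨A, s, a⟩ := h.up B b
    simpa only [k a (up_eqv φ B') i.1] using x A _ f s ((h.adj a (up_eqv φ B')).2 d) i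
  · obtain ⟨B, b, a⟩ := h.dn A s
    obtain ⟨B', -, e, a'⟩ := h.adj' s a d
    simpa only [k a a' i.1] using x B B' f b e i

theorem sl {j : Completion E ≃ₗᵢ[ℂ] H} (c : ∀ v : E, j v = φ v)
    (x : ∀ m n, Eqv φ (T m n) (T' m n)) : Dh.SL S T ↔ Dn.SL Q T' := by
  have k : ∀ {m n f Y v w}, IsTest f → (inner ℂ (T m n f (φ w)) (j.conjStarAlgEquiv Y (φ v)) =
      inner ℂ (φ w) (j.conjStarAlgEquiv Y (T m n f (φ v))) ↔
      inner ℂ (T' m n f w : Completion E) (Y v) = inner ℂ (w : Completion E) (Y (T' m n f v : E))) :=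
    fun t => by
      rw [x _ _ _ _ t, x _ _ _ _ t, ← c, ← c, ← c, ← c, cj, cj, j.inner_map_map, j.inner_map_map]
  refine ⟨fun y => ⟨fun a b m n f p q r i e => ?_⟩, fun y => ⟨fun a b m n f p q r i e => ?_⟩⟩
  · obtain ⟨M, u, w⟩ := y.1 a b m n f p q r i e
    obtain ⟨N', z⟩ := ex_dn j fun _ => M
    exact ⟨N' ∅, fun Y o => ((h.wk c).1 (u _ ((z _ _).1 o))).1, fun Y o v v' s s' =>
      (k i.1).1 (w _ ((com z).1 o) _ _ (h.cyc_up s) (h.cyc_up s'))⟩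
  · obtain ⟨M, u, w⟩ := y.1 a b m n f p q r i e
    obtain ⟨N', z⟩ := ex_up j fun _ => M
    refine ⟨N' ∅, fun Y o => ?_, fun Y o v v' s s' => ?_⟩ <;>
    obtain ⟨Y, rfl⟩ := p_sur j.conjStarAlgEquiv Y
    · exact (h.wk c).2 ⟨u _ ((z _ _).2 o)⟩
    obtain ⟨v, rfl, l⟩ := h.cyc_dn s
    obtain ⟨v', rfl, l'⟩ := h.cyc_dn s'
    exact (k i.1).2 (w _ ((com z).2 o) _ _ l l')

theorem ivac {j : Completion E ≃ₗᵢ[ℂ] H} (c : ∀ v : E, j v = φ v) (k : Dh.IVac K) : Dn.IVac Q :=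
  fun z a s L hs hL => j.injective ((h.ue c hs hL 0 z).trans (k (j z) (fun y =>
    (h.ue c one_pos lor1 y z).symm.trans (congrArg j (a y))) s L hs hL))

theorem cyc_all {p : H → Prop} : (∀ w, Dh.Cyc S w → p w) ↔ ∀ v, Dz.Cyc Q v → p (φ v) :=
  ⟨fun k v c => k _ (h.cyc_up c), fun k w c => by
    obtain ⟨v, rfl, d⟩ := h.cyc_dn c
    exact k v d⟩

variable (d : Dd Q)
include d

theorem der (m) {v} (c : Dz.Cyc Q v) :
    HasDerivAt (fun t : ℝ => K.U 1 Dh.one (Dh.bas m t) (φ v)) (φ (Dn.Dv Q m v)) 0 :=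
  ((φ.toContinuousLinearMap.restrictScalars ℝ).hasFDerivAt.comp_hasDerivAt (0 : ℝ)
    (d m v c).2).congr_of_eventuallyEq (.of_forall fun _ => h.U _ _ _ _ one_pos lor1)

theorem dv (m) {v} (c : Dz.Cyc Q v) : Dh.Dv K m (φ v) = φ (Dn.Dv Q m v) := (h.der d m c).deriv

theorem en (k : ℕ) {v} (c : Dz.Cyc Q v) : Dh.en K k (φ v) = Dn.en Q k v := by
  induction k generalizing v with
  | zero => exact φ.norm_map v
  | succ k e =>
    show Dh.en _ k _ + ∑ m, Dh.en _ k (Dh.Dv _ m _) = Dn.en Q k _ + ∑ m, Dn.en Q k (Dn.Dv Q m _)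
    simp only [e c, h.dv d _ c, fun m => e (d m v c).1]

theorem ebd : Dh.EBd S ↔ Dn.EBd Q := by
  refine ⟨fun x B b => ?_, fun x A s => ?_⟩
  · obtain ⟨A, s, a⟩ := h.up B b
    refine (x A s).imp fun k p f i => (p f i).imp fun C q v c => ?_
    rw [← φ.norm_map, ← a f v i.1, ← h.en d k c]
    exact q _ (h.cyc_up c)
  · obtain ⟨B, b, a⟩ := h.dn A s
    refine (x B b).imp fun k p f i => (p f i).imp fun C q => h.cyc_all.2 fun v c => ?_
    rw [a f v i.1, φ.norm_map, h.en d k c]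
    exact q v c

theorem fbt (x : ∀ m n, Eqv φ (T m n) (T' m n)) : Dh.FBT S T ↔ Dn.FBT Q T' :=
  forall₄_congr fun m n f i => exists_congr fun C => h.cyc_all.trans <| forall₂_congr fun v c => by
    rw [x m n f v i.1, h.dv d _ c, φ.inner_map_map, φ.inner_map_map, φ.norm_map]
    rfl

theorem leb (r : Rl R P φ G) : Dh.LEB R S ↔ Dn.LEB P Q := by
  refine ⟨fun x B f b i => ?_, fun x A f s i => ?_⟩
  · obtain ⟨A, s, a⟩ := r.up B b
    refine (x A f s i).imp fun C q v c => ?_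
    have := q _ (h.cyc_up c)
    rwa [a f v i.1, h.dv d _ c, φ.norm_map, φ.norm_map, φ.norm_map] at this
  · obtain ⟨B, b, a⟩ := r.dn A s
    refine (x B f b i).imp fun C q => h.cyc_all.2 fun v c => ?_
    rw [a f v i.1, h.dv d _ c, φ.norm_map, φ.norm_map, φ.norm_map]
    exact q v c

end Rl

variable {S : Dh.Theory K}

/-- the hypotheses on the domain -/
theorem hyq_dn {T} (h : Dh.Hyq S T) : ∃ Q G T' Γ N', ∃ R : Rl S Q S.dom.subtypeₗᵢ G,
    (iso _ R.dr).conjStarAlgEquiv Γ = K.Γ ∧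
      (∀ m n, Eqv S.dom.subtypeₗᵢ (T m n) (T' m n)) ∧ Dn.Hz Q G T' Γ N' := by
  obtain ⟨Q, G, R0⟩ := ex_rl S
  have R := th_rl R0.toLk
  choose T' a x b using fun m n => R.rep (h.1.1 m n).1
  obtain ⟨Γ, g⟩ := p_sur (iso _ R.dr).conjStarAlgEquiv K.Γ
  have c := iso_coe _ R.dr
  have d := R.dd h.4
  obtain ⟨N', n⟩ : ∃ N', Dn.Rgl (th R0.toLk) G T' Γ N' := by
    rcases h.5 with ⟨N, p, q⟩ | ⟨p, q⟩ | ⟨P, p, q⟩
    · obtain ⟨N', n⟩ := ex_dn (iso _ R.dr) N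
      exact ⟨N', .net ⟨Z.net.1 ((R.net c n g).1 p), q.imp (fun k => Z.aff.1 ((R.aff c n).1 k))
        fun k => Z.rel.1 ((R.rel c n g).1 k)⟩⟩
    · exact ⟨E.Mn.N1 _, .energy ⟨(R.ebd d).1 p, q.imp (R.fbt d x).1 (R.sl c x).1⟩⟩
    have k : Lk K P.dom S.dom.subtypeₗᵢ Q.vac G Q.U := by
      have := R0.toLk
      exact ⟨fun v => p.1.ge v.2, fun w m => this.2 w (p.1.le m), this.3, this.4, this.5⟩
    have r := th_rl k
    exact ⟨E.Mn.N1 _, .sub (th k) ⟨⟨rfl, rfl, fun B => Exists.imp fun A s => ⟨p.2 A s.1, s.2⟩,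
      fun B => Exists.imp fun A s => ⟨⟨p.2 A s.1.1, p.1 ▸ s.1.2⟩, s.2⟩⟩, Z.gr.1 r.gr,
      .inr ((r.fin.1 p.3).imp Z.mfa.1 Z.fsl.1), q.imp r.ana.1 (And.imp (R.ebd d).1 (R.leb d r).1)⟩⟩
  refine ⟨_, G, T', Γ, N', R, g, x, Z.gr.1 R.gr, R.even, (R.cg c).1 g,
    Z.stress.1 ((R.stress x).1 ⟨h.1, fun m n => b m n (h.1.1 m n)⟩).1, Z.pgen.1 ((R.pgen x).1 h.2),
    h.3.imp (fun ⟨J, v⟩ => ?_) (R.ivac c),
    .inr ((R.fin.1 h.4).imp Z.mfa.1 Z.fsl.1), n⟩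
  choose J' a' y b' using fun m => R.rep (v.1 m).1
  exact ⟨J', Z.vir.1 ((R.vir x y).1 ⟨v, fun m => b' m (v.1 m)⟩).1⟩

variable {D : Type u} {E' : Type*} [NormedAddCommGroup D] [InnerProductSpace ℂ D]
  [NormedAddCommGroup E'] [InnerProductSpace ℂ E'] {Q : Theory D} {φ : D →ₗᵢ[ℂ] H} {G : D → D}
  {Γ : Completion D →L[ℂ] Completion D} {P : Theory E'} {k : E' →ₗᵢ[ℂ] Completion D}
  {G' : E' → E'} {e : Fld D → Fld E'}

theorem xt_mem (x : Dn.Ext Q Γ P k G' e) {w : D} (c : Dz.Cyc Q w) : ∃ v, k v = w :=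
  (c (N352.cy Q ⊓ (LinearMap.range k.toLinearMap).comap
    (Completion.toComplₗᵢ (𝕜 := ℂ)).toLinearMap) ⟨cyc_vac, _, x.vac⟩
    fun A f v s t ⟨a, v', b⟩ => ⟨Cyc.fld a s t, _, x.agree A f v' v s t a b⟩).2

variable (R : Rl S Q φ G) {j : Completion D ≃ₗᵢ[ℂ] H} (c : ∀ v : D, j v = φ v)
  (g : j.conjStarAlgEquiv Γ = K.Γ)
include R c g

/-- the extension in the Hilbert space -/
theorem Rl.xt_up (x : Dn.Ext Q Γ P k G' e) :
    ∃ S' : Dh.Theory K, Rl S' P (j.toLinearIsometry.comp k) G' ∧ Dh.Xtn S S' ∧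
      (∀ B, P.fld B → S'.fld (N352.H.up (j.toLinearIsometry.comp k) B)) ∧
      (∀ A B, Q.fld B → Eqv φ A B → Dh.Agr S A (N352.H.up (j.toLinearIsometry.comp k) (e B))) ∧
      ∀ R : Dh.Theory K, R.dom = S'.dom → (∀ A, S'.fld A → R.fld A) →
        ∃ R', Rl R R' (j.toLinearIsometry.comp k) G' ∧ Dz.IsEnl P R' := by
  set ψ := j.toLinearIsometry.comp k
  have d : DenseRange ψ := j.surjective.denseRange.comp ((N352.G.X.cs_dense Q).mono (by
    rintro _ ⟨w, rfl⟩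
    exact xt_mem x w.2)) j.continuous
  have q : Lk K (LinearMap.range ψ.toLinearMap) ψ P.vac G' P.U :=
    ⟨fun v => ⟨v, rfl⟩, fun _ m => m, ((congrArg j x.vac).trans (R.om c)).symm,
      fun v => (g ▸ cj j Γ _).trans (congrArg j (x.G v).symm), fun s L a v hs hL =>
        (R.ue c hs hL a _).symm.trans (congrArg j (x.U s L a v hs hL).symm)⟩
  have y := Z.gr.2 x.toGr
  have a : ∀ A B, Q.fld B → Eqv φ A B → Dh.Agr S A (N352.H.up ψ (e B)) := fun A B b z f v t p => by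
    obtain ⟨w, rfl, u⟩ := R.cyc_dn p
    obtain ⟨v, r⟩ := xt_mem x u
    rw [z f w t, ← c, ← c, ← r, ← x.agree B f v w b t u r]
    exact up_eq ψ _ f v
  refine ⟨_, sys_rl q y d, fun A s => ?_, fun _ => sys_up q _ d, a, enl q _ d⟩
  obtain ⟨B, b, z⟩ := R.dn A s
  exact ⟨_, sys_up q _ d (x.fld B b), a A B b z⟩

theorem Rl.mxq_dn {N'} (r : Dh.Mxq S) : Dn.Maz Q G Γ N' Q .id := ⟨fun _ _ _ P k G' e L x hL => by
  obtain ⟨S', R', y, z, -⟩ := R.xt_up c g x.toExt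
  have l := R'.scalar_up (up_eqv _ L) (z _ (P.bose_fld _ hL.1)) hL
  obtain ⟨A, s, w⟩ := r S' _ y l
  obtain ⟨B, b, a⟩ := R.dn A s
  obtain ⟨C, C', p, q, o⟩ := R.gr.split B b
  refine ⟨C, p, fun f t => Eq.trans ?_ (congrFun (Completion.map_id (α := D)) _).symm⟩
  have u : φ (C f Q.vac + C' f Q.vac) = N352.H.up (j.toLinearIsometry.comp k) L f K.Ω := by
    rw [← o f _ t, ← a f _ t, ← R.vac, w f t]
  have v := sc_even l t
  have q' := q.2 f Q.vac t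
  rw [← u, R.gam, g_add R.gr, ← R.gr.3 C f _ p t, R.even] at v
  rw [R.even, ← neg_eq_iff_eq_neg] at q'
  have z : (2 : ℂ) • C' f Q.vac = 0 := by
    rw [two_smul, add_eq_zero_iff_neg_eq, q']
    exact add_left_cancel (φ.injective v)
  rw [(smul_eq_zero.1 z).resolve_left two_ne_zero, add_zero, R'.vac, up_eq, ← c] at u
  exact j.injective u⟩

end

end Vale.Agent.N352.H
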