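import Vale.Agent.N352.Y.Fin

/-!
# N352, block Y: the extension under all regularity conditions
-/

set_option linter.all false

open Filter Topology

namespace Vale.Agent.N352.Y

noncomputable section

universe u v

section energy

open Vale.Agent.P352 Vale.Agent.P352.GF Vale.Agent.P352.BW Vale.Agent.P352.H246
open Vale.Agent.P352.H496 Vale.Agent.P352.H755 Vale.Agent.P352.H15
open Vale.Agent.P352X Vale.Agent.P352L Vale.Agent.P352R
open E E.Mn F
open T (Cm corm)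
open K (Gn)
open UniformSpace (Completion)

variable {D : Type u} [NormedAddCommGroup D] [InnerProductSpace ℂ D]
  {D' : Type v} [NormedAddCommGroup D'] [InnerProductSpace ℂ D']
  {Q : Theory D} {G : D → D} {T : Ix → Ix → Fld D} {A : (V → V) → D → D}

/-- the analytic core -/
def Core2 (c : Cf D) (T : Ix → Ix → Fld D) : Prop :=
  ∃ x : E.Ctx D, x.toCf = c ∧ x.T = T ∧ (∃ D' Q' G' e L, FINp x (D' := D') Q' G' e L ∧
    (∀ v, Cyc Q' v) ∧ N352.G.X.Cl Q') ∧ MX c T x.l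

theorem core_of (c : Cf D) {N l} (hT : c.Q.IsStress T) (hl : Pot c T N l) (a : AW c N)
    (e : P352X.EBd c.Q) (h0 : COV0 c) : Core2 c T :=
  have ⟨ml, d1, o, t⟩ := gt_row c T N l hT hl a e h0
  ⟨⟨c, T, l, hT, hl.pot, ml, d1⟩, rfl, rfl, fin_p (e0_thm c) _ h0 o t, hl.mix⟩

open Tp Fss.G in
/-- the stress tensor of dimension four -/
theorem fourE (h : Di.Hb Q G T A) (r : Di.Reg1 Q G T A) {R : Theory D'} {i : D →ₗᵢ[ℂ] D'}
    {G' : D' → D'} {T' : Ix → Ix → Fld D'} (s : P.Sect Q R i) (g : P.Gr R G')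
    (hT' : P.Stress0 R T') (hP : Dn.PGen R T') (hx : ∀ m n, P.Xt i (T m n) (T' m n)) :
    ∃ S S', Q.IsStress S ∧ ND.PCh Q S A ∧ Core2 (cf h.toGe) S ∧ R.IsStress S' ∧
      Dn.Same R T' S' ∧ ∀ m n, P.Xt i (S m n) (S' m n) := by
  obtain ⟨b, s'⟩ := Ti.reg h (.inl r)
  obtain ⟨F, C, hC, c4, c, d, -, N, l, p, q⟩ := sectorI (c := cf h.toGe) (fun E _ _ => U.rows E)
    (Br.stress0.1 (Bg.stress0.1 h.stress)) h.charges (fun s hs => h.cov s _ 0 hs lor1)
    (fun m n => (h.scl m n).imp fun _ => Exists.imp fun _ k => ⟨k.1, k.2⟩)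
    h.vacua (Tw.eb1 b) (Tw.sl1.1 s')
  have k := core_of (cf h.toGe) c q p (Br.ebd.1 (Bg.ebd.1 r.1)) (cov0_of h.cov)
  have r' := m1_gr (Br.gr.1 g)
  choose C' c1 c2 using fun m n => Cw.scl_ext (Br.sect.1 s) (m1_gr (cf h.toGe).hN.toGr) r'
    (h.stress.bose m n) (hT'.bose m n) (hx m n) (hC m n)
  obtain ⟨d1, d2⟩ :=
    fss0 r' (fun t ht => s.cov t _ 0 ht H496.isLor_one) (Br.stress0.1 hT') hP c1 c4
  exact ⟨_, _, c, d, k, d1, same_of g hT'.bose d1.bose hP d2, fun m n => c2 m n _⟩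

/-- the data of an extension -/
def Xn (Q : Theory D) (Γ : Completion D →L[ℂ] Completion D) (S : Ix → Ix → Fld D) : Prop :=
  ∃ (M : _) (E : Submodule ℂ (Completion D)) (P : Theory E) (G' : E → E) (e : Fld D → Fld E)
    (L : Fld E), N352.Ext Q Γ M P G' e ∧ (Gn Q P e L ∧ MfAll P ∧ FSL P) ∧
    P.IsStress (fun m n => e (S m n)) ∧ P.IsScalar L 2 ∧
    N352.Desc P G' (improve (fun m n => e (S m n)) L) ∧
    ∀ R, P352R.P.IsEnl P R → P352R.P.Gr R G' →
      Cm R G' (fun m n => e (S m n)) (improve (fun m n => e (S m n)) L)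

/-- **the local extension** -/
theorem extenE (c : Cf D) (hM : MfAll c.Q) (hF : FSL c.Q) {S : Ix → Ix → Fld D} (k : Core2 c S) :
    Xn c.Q c.Γ S := by
  have hc := cov0_row hM hF
  obtain ⟨x, rfl, rfl, ⟨E, P, G', e, L, h0, cy, cl⟩, Z, z2, z1, z3⟩ := k
  have ⟨h1, h2, h3, h4, h5, h6⟩ := h0
  have mx : ∀ R, IsEnl P R → Pf.Mx R (improve (fun m n => e (x.T m n)) L) := fun R n F w hF => by
    have hv : (R.vac : Completion D) = x.toCf.Om := by rw [n.vac]; exact h1.vac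
    have b3 := z3 _ (imp_mem (R := R) (S := fun m n => e (x.T m n)) (L := L) E.subtype Z
      (fun m n' f hf => by
        rw [n.vac, Submodule.subtype_apply,
          h1.agree _ f _ _ (x.Q.bose_fld _ (x.hT.bose m n')) hf cyc_vac h1.vac]
        exact z2 m n' f hf)
      (fun f hf => by rw [n.vac, Submodule.subtype_apply, h5 f hf]; exact z1 f hf) hF) w
    rw [← hv, Submodule.subtype_apply, ← Submodule.coe_inner, ← Submodule.coe_inner] at b3
    refine b3.congr' (eventually_nhdsWithin_of_forall fun r hr => ?_)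
    obtain ⟨p1, p2⟩ := CA.lsc_pos hr
    show inner ℂ _ (Ue _ _ _ _ _) = inner ℂ _ (R.U _ _ _ _)
    rw [← h1.U _ _ _ _ p1 p2, n.U]
    rfl
  have t0 := fun R n => (Br.impr.2 (EB.scal_row _ P _ L h2 h3 h4 R n).1).traceless
  refine ⟨_, E, P, G', e, L, Pf.ext_of h1 (afw1 P), ⟨⟨cy, h6⟩, h0.mfa hM hF, h0.fsl hM hF cl⟩, h2, h3,
    fun B hB => ?_, fun R n g => corm (Br.gr.1 g) (H746.isStress_enl (Br.enl.1 n) h2)
      (scalar_enl (Br.enl.1 n) h3) (t0 R (Br.enl.1 n)) (mx R (Br.enl.1 n))⟩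
  have n : IsEnl P P := ⟨rfl, rfl, fun _ h => h, fun _ h => h⟩
  obtain ⟨d1, d2⟩ := core2 h1.toGr h2 h3 (t0 P n) (mx P n)
  obtain ⟨m, C, hC, h⟩ := h6 B hB
  have key : ∀ i, ∃ (r : ℕ) (p : Fin r → Bool) (C' : Fin r → Fld E),
      (∀ j, DescS P G' (improve (fun m n => e (x.T m n)) L) (p j) (C' j)) ∧
      ∀ f v, IsTest f → C i f v = ∑ j, C' j f v := fun i => by
    rcases hC i with h | ⟨C', a, b⟩
    · exact ⟨1, fun _ => false, fun _ => L, fun _ => d2, fun _ _ _ => by simp [h]⟩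
    · obtain ⟨r, p, C'', a1, a2⟩ := desc_fld h1 hc hF d1 hM a
      exact ⟨r, p, C'', a1, fun f v hf => (b f v hf).trans (a2 f v hf)⟩
  choose r p C' b1 b2 using key
  let q := (Fintype.equivFin (Σ i, Fin (r i))).symm
  refine ⟨_, fun j => p (q j).1 (q j).2, fun j => C' (q j).1 (q j).2, fun j => Br.desc (b1 _ _),
    fun f v hf => (h f v).trans ?_⟩
  rw [q.sum_comp fun j => C' j.1 j.2 f v, Fintype.sum_sigma]
  exact Finset.sum_congr rfl fun i _ => b2 i f v hf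

end energy

open P352.GF P352R P352R.P F
open T (Cm)
open UniformSpace (Completion)

variable {D : Type u} {D' : Type v} [NormedAddCommGroup D] [InnerProductSpace ℂ D]
  [NormedAddCommGroup D'] [InnerProductSpace ℂ D'] {Q : Theory D} {G : D → D}
  {T : Ix → Ix → Fld D} {A : (V → V) → D → D} {Γ : Completion D →L[ℂ] Completion D}

variable (D' Q Γ T A) in
/-- the analytic results on the generated domain -/
def Kit : Prop := ∀ (R : Theory D') i G' T', Sect Q R i → Gr R G' → Stress0 R T' → Dn.PGen R T' →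
  (∀ m n, Xt i (T m n) (T' m n)) → ∃ S S', Q.IsStress S ∧ PCh Q S A ∧ R.IsStress S' ∧
    Dn.Same R T' S' ∧ (∀ m n, Xt i (S m n) (S' m n)) ∧ Xn Q Γ S

theorem kitN {N} (n : P352R.G.LNg Q G A Γ N) (m : MfA Q) (l : FSL Q) (s : Stress0 Q T)
    (p : PCh Q T A) (k : Dn.IVac Q) : Kit D' Q T A Γ := fun R i G' T' a b c d e => by
  let x : P352X.EG.Cg D := ⟨Q, G, A, Γ, N, Br.lng.1 n⟩
  have m := Br.mfa.1 m
  obtain ⟨S, S', h1, h2, h3, -, h4, h5⟩ := four (U.rows D) x m l k (Br.stress0.1 s) p a b c d e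
  obtain ⟨E, P, G1, e, L, ⟨y, -⟩, z⟩ := K.exten2 x m l k h1 h2
  exact ⟨S, S', h1, h2, h3, h4, h5, N, E, P, G1, e, L, y, z⟩

theorem kitE (g : GI.Ge Q G A) (x : ∀ v : D, Γ v = (G v : D)) (m : MfA Q) (l : FSL Q)
    (s : Stress0 Q T) (p : PCh Q T A) (k : Dn.IVac Q) (r : Di.Reg1 Q G T A) :
    Kit D' Q T A Γ := fun R i G' T' a b c d e => by
  have v := Pf.cova (Br.gr.1 g.toGr) (Br.mfa.1 m) l
  have h : Di.Hb Q G T A := ⟨Bg.ge.2 g, Bg.stress0.2 s, p, k, v,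
    fun m n => Bg.fsl.2 l _ (Q.bose_fld _ (s.bose m n))⟩
  obtain rfl : (E.Tp.cf h.toGe).Γ = Γ := P352X.EG.SGx.dext fun v =>
    ((E.Tp.cf h.toGe).hN.ext v).trans (x v).symm
  obtain ⟨S, S', h1, h0, h2, h3, h4, h5⟩ := fourE h r a b c d e
  exact ⟨S, S', h1, h0, h3, h4, h5, extenE (E.Tp.cf h.toGe) (Br.mfa.1 m) l h2⟩

open Gz (prep pgx tf st pc iv self ext_congr conf_congr)

variable {N : Set V → VonNeumannAlgebra (Completion D)} (H : Dn.Hz Q G T Γ N)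
include H

theorem kit {h : Ok Q} {A' : (V → V) → N352.cy Q → N352.cy Q} (m : MfA Q) (l : FSL Q)
    (a : GI.Ge (rs Q h) (rg Q G) A') :
    Kit D' (rs Q h) (fun m n => rf Q (T m n)) A' (pg Q Γ) := by
  have g := gr.1 H.grading
  have kn : ∀ {M}, P352R.G.LNg (rs Q h) (rg Q G) A' (pg Q Γ) M →
      Kit D' (rs Q h) (fun m n => rf Q (T m n)) A' (pg Q Γ) := fun n =>
    kitN n (rs_mfa (h := h) m) (rs_fsl (h := h) l) (st H) (pc H m a) (iv H m l a)
  rcases H.regular with n | ⟨e, r⟩ | ⟨R, n, g', f, r⟩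
  · obtain ⟨M, n', -⟩ := net_of' a (rs_mfa (h := h) m) rs_cy ((rs_rst (h := h)).net
      (rg_coe g H.even) n.1) ((rs_rst (h := h)).rel (n.2.elim (rel_of_aff g n.1) id))
    exact kn n'
  · exact kitE a (pgx H) (rs_mfa (h := h) m) (rs_fsl (h := h) l) (st H) (pc H m a) (iv H m l a)
      ⟨rs_ebd (Bg.ge.2 a) e,
        r.imp (rs_fbt (Bg.ge.2 a) (tf H)) fun r => .inl (rs_sl (tf H) H.stress.herm r)⟩
  · obtain ⟨Γ', M, n'⟩ := nets (rs Q h) _ A' (.inr ⟨rs_mfa (h := h) m, rs_fsl (h := h) l⟩)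
      (.inr ⟨a, sb (enl.1 n) h, sb_enl, sb_gr g H.even (gr.1 g'), sb_flds f,
        r.imp (fun r => ⟨rs_cy, sb_ana r⟩) fun r =>
          ⟨Bg.ebd.1 (rs_ebd (Bg.ge.2 a) r.1), sb_leb (Bg.ge.2 a) r.2⟩⟩)
    obtain rfl : Γ' = pg Q Γ := P352X.EG.SGx.dext fun v => (n'.ext v).trans (pgx H v).symm
    exact kn n'

/-- **the local extension** -/
theorem ext6 : ∃ S, Q.IsStress S ∧ Dn.Same Q T S ∧
    ∃ (E : Type u) (_ : NormedAddCommGroup E) (_ : InnerProductSpace ℂ E) (P : Theory E)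
      (k : E →ₗᵢ[ℂ] Completion D) (G' : E → E) (e : Fld D → Fld E) (t : Ix → Ix → Fld E),
      Dn.Ext Q Γ P k G' e ∧ Dn.Stress P (fun m n => e (S m n)) ∧ Dn.MfA P ∧ Dn.FSL P ∧
        GI.Cy P ∧ Dn.Desc P G' t ∧ ∀ R, Dn.IsEnl P R → Dn.Gr R G' →
          Dk.Cnf R G' (fun m n => e (S m n)) t ∧ Dn.PGen R fun m n => e (S m n) := by
  have g := gr.1 H.grading
  obtain ⟨h, A, m, l, a⟩ := prep H
  have o := self H m l
  obtain ⟨S, S', h1, h2, b, c, h5, M, E, P, G1, e, L, y, ⟨gn, q, q'⟩, s', sc, ds, r⟩ :=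
    kit H m l a Q _ G T (rs_sect (h := h) (sect.1 o.sect)) g (st0_of g o.stress o.poincare)
      o.poincare fun m n => rf_xt (tf H m n)
  have s := fun m n => Q.bose_fld _ (b.bose m n)
  have u := (rs_rst (h := h)).ext (Γ := Γ) (fun _ => rf_xt) y
  have cg := fun m n f v (hf : IsTest f) => ext_congr y (rs_fld (h := h) (s m n))
    ((rs Q h).bose_fld _ (h1.bose m n)) (fun f v hf => (io Q).injective
      ((rf_xt (s m n) f v hf).trans (h5 m n f v hf).symm)) hf v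
  obtain ⟨A', a'⟩ := (GI.thm _).gen P G1 y.toGr (Subtype.ext ((y.G _).trans (by
    rw [y.vac]
    exact (pgx H _).trans (congrArg _ a.vac)))) (F.cy.1 gn.1) (Br.mfa.2 q) q'
  have pg := K.pgen_congr cg (K.pg_ext y (rs_cy (h := h)) a.der a'.der h1.bose h2 gn sc
    (K.cnf y.toGr (r P ⟨rfl, rfl, fun _ h => h, fun _ h => h⟩ y.toGr)).toConf)
  have bo := fun m n => u.bos _ (b.bose m n)
  have pc' := pch_of a' (Br.mfa.2 q) bo pg
  exact ⟨S', b, c, E, _, _, P, _, G1, _, _, u, K.stress_congr s' bo cg, mfa.2 (Br.mfa.2 q),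
    fsl.2 q', F.cy.1 gn.1, desc ds, fun R u w => have r := r R (enl.1 u) (gr.1 w)
      (fun x => ⟨x, K.pg_enl a'.der pc' bo u x.toConf⟩) (K.cnf (gr.1 w) ⟨conf_congr cg r.1, r.2⟩)⟩

/-- **theories that contain the scalars of their extensions** -/
theorem conf6 (x : Dn.Maz Q G Γ N Q .id) : ∃ t, Dk.Cnf Q G T t := by
  obtain ⟨m, l, -⟩ := N352.T.kit (D' := D) H
  exact (N352.T.sup H N352.T.dta_all (self H m l) x).imp fun _ k => ⟨k.1, k.2⟩

end

end Vale.Agent.N352.Y
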