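import Vale.Agent.N352.Y.Hl
import Vale.Agent.N352.Bo.Rl

/-!
# N352, block Y: the witness
-/

set_option linter.all false

namespace Vale.Agent.N352.H

open P352.GF F P352R P352R.P P352R.G
open UniformSpace (Completion)

noncomputable section

universe u

variable {H : Type u} [NormedAddCommGroup H] [InnerProductSpace ℂ H] [CompleteSpace H]
  {K : Dh.Frame H} {S : Dh.Theory K} {D : Type u} [NormedAddCommGroup D] [InnerProductSpace ℂ D]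
  {Q : Theory D} {φ : D →ₗᵢ[ℂ] H} {G : D → D} {Γ : Completion D →L[ℂ] Completion D}

theorem Rl.mxq_up (R : Rl S Q φ G) {j : Completion D ≃ₗᵢ[ℂ] H} (c : ∀ v : D, j v = φ v)
    (g : j.conjStarAlgEquiv Γ = K.Γ) (r : Dn.Max Q Γ Q .id) : Dh.Mxq S := fun P L x l => by
  obtain ⟨P', G', R'⟩ := ex_rl P
  let k := j.symm.toLinearIsometry.comp P.dom.subtypeₗᵢ
  have q : ∀ v, j (k v) = v := fun v => j.apply_symm_apply _
  have : ∀ B, ∃ B', Q.fld B → ∃ A C, S.fld A ∧ Eqv φ A B ∧ P.fld C ∧ Dh.Agr S A C ∧ P'.fld B' ∧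
      Eqv P.dom.subtypeₗᵢ C B' ∧ (Dh.Bose P C → P'.bose B') := fun B => by
    by_cases b : Q.fld B
    · obtain ⟨A, s, a⟩ := R.up B b
      obtain ⟨C, p, z⟩ := x A s
      obtain ⟨B', u⟩ := R'.rep p
      exact ⟨B', fun _ => ⟨A, C, s, a, p, z, u⟩⟩
    · exact ⟨0, fun k => (b k).elim⟩
  choose e y using this
  obtain ⟨L', l1, l2, l3⟩ := R'.rep l.1.1
  obtain ⟨B, b, w⟩ := r.max _ P' k G' e L' ⟨Z.gr.1 R'.gr, j.injective ((q _).trans
      (R'.vac.symm.trans (R.om c).symm)), fun v => j.injective (by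
        rw [← cj, g, q, q]; exact (R'.gam v).symm), fun s M a v hs hM => j.injective (by
        rw [q]; exact ((R.ue c hs hM a _).trans ((congrArg _ (q v)).trans (R'.U s M a v hs hM))).symm),
      fun B b => have ⟨_, _, _, _, _, _, p, _⟩ := y B b; p,
      fun B b => have ⟨_, _, s, a, p, z, _, _, o⟩ := y B (Q.bose_fld B b)
        o ⟨p, Bo.ext_par x s p z (R.bose_up b s a).2 (by simp)⟩,
      fun B B' b b' d => by
        obtain ⟨A, C, s, a, p, z, -, u, -⟩ := y B b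
        obtain ⟨A', C', s', a', p', z', -, u', -⟩ := y B' b'
        obtain ⟨X, -, o⟩ := P.adj C p
        refine (R'.adj u u').1 fun f t v m w n => (o f t v m w n).trans (congrArg _
          (Bo.ext_C (Q := S) fun i h => ?_))
        rw [← o f t i (Bo.cyc_mem x h) w n, z f i t h,
          ← Bo.ext_adj x (Bo.adj_symm ((R.adj a a').2 d)) p' z' (Bo.tb t) h n, Bo.bb],
      fun B f v w b t i h => by
        obtain ⟨A, C, s, a, p, z, -, u, -⟩ := y B b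
        have h' : (v : H) = φ w := (q v).symm.trans ((congrArg j h).trans (c w))
        refine j.injective ((q _).trans ((u f v t).symm.trans ?_))
        rw [c, ← a f w t, ← z f _ t (R.cyc_up i), ← h']
        rfl⟩
    ⟨l3 l.1, (R'.adj l2 l2).1 l.2, fun s M a f v hs hM t => Subtype.ext (by
      have := l.3 s M a f hs hM t v v.2
      refine (l2 f _ t).symm.trans ((congrArg _ (R'.U s M a v hs hM).symm).trans (this.trans ?_))
      exact congrArg _ ((congrArg _ (l2 _ v (t_sim hs hM a t))).trans (R'.U s M a _ hs hM)))⟩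
  obtain ⟨A, s, a⟩ := R.up B (Q.bose_fld B b)
  refine ⟨A, s, fun f t => ?_⟩
  have := congrArg j ((w f t).trans (congrFun (Completion.map_id (α := D)) _))
  rw [R.vac, a f _ t, ← c, ← R.vac, R'.vac, l2 f _ t]
  exact this.trans (q _)

end

open P352 P352R.Le P352R.L22 P352L.StA E in
theorem wiy : ∃ (E : Type) (_ : NormedAddCommGroup E) (_ : InnerProductSpace ℂ E)
    (Q R : Theory E), ∃ T N J B, (Dn.Gr Q id ∧ Dn.Stress Q T ∧ Dn.PGen Q T) ∧ Dn.Max Q 1 Q .id ∧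
      Dn.UVac Q ∧ Dn.Vir Q T J ∧ Dn.CntF Q ∧ (MfA Q ∧ FSL Q) ∧
      (Dn.Net Q id 1 N ∧ Dn.Aff Q N ∧ Dn.Rel Q 1 N) ∧ (Dn.EBd Q ∧ Dn.FBT Q T ∧ Dn.SL Q T) ∧
      (Dn.IsEnl R Q ∧ Dn.Gr R id ∧ (MfA R ∧ FSL R) ∧ Dn.Ana R ∧ Dn.LEB R Q) ∧ Q.IsScalar B 1 ∧
      (∃ f, IsTest f ∧ B f Q.vac ≠ 0) ∧ ¬FiniteDimensional ℂ (Completion E) ∧
      ∃ f, IsTest f ∧ tr T f Q.vac ≠ 0 := by
  obtain ⟨A, N, ⟨a, b, -, f0, n, u, x⟩, -, y0, ⟨-, g, d⟩, ⟨B, l, m⟩, k⟩ := fr.topQ rec_fr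
  obtain ⟨J, hJ⟩ := vir_fr
  obtain ⟨N', n1, n2, n3⟩ := net_all (lng_of n g)
  have r := (Br.lnm.1 n).toRep
  have e := En.W22.enb (A := A) ⟨r.mul, r.add, r.der⟩
  have r' : H15.Rep (hull fr.t0) A := ⟨r.mul, r.add, r.der⟩
  have ge : Df.Ge fr.tq id A := ⟨Bg.gr.2 g, ⟨d⟩, rfl, r.add⟩
  have s := Bg.stress0.2 a
  have eb := Bg.ebd.2 (H72.ebd r)
  have lb : Df.LBT fr.tq _ := fun m n => Sl.lb_wit r m n
  have g' := Br.gr.2 (Gl2.gr r' (fun _ b => b) (zero_mem _))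
  obtain ⟨c1, c2, -⟩ := Tp.cnt (Q := hull fr.t0) (A := A) ⟨Bg.gr.2 g', ⟨d⟩, rfl, r.add⟩
    (.inl ⟨e.cnt.1, e.cnt.2, e.cnt.3⟩)
  refine ⟨_, _, _, fr.tq, hull fr.t0, _, N', J, B, ⟨gr.2 g, stress a, pgen' d b⟩, max_of_rec' x _, u,
    hJ, ⟨cntF_tq.1, cntF_tq.2, cntF_tq.3, cts_of d⟩, ⟨y0, f0⟩, ⟨n1, n2, n3⟩,
    ⟨fun C hC => (eb C hC).imp fun _ p f hf => (p f hf).imp fun _ q v _ => q v,
      fun m n f hf => (Fb.fb (c := Tp.cf ge) (fr.tq.bose_fld _ (s.bose m n)) (s.herm m n) (lb m n)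
        f hf).imp fun _ q v _ => q v, Gz.sl_of a.herm (Tp.loc ge s eb (.inr (.inl lb)))⟩,
    ⟨F.enl.2 e.sub, gr.2 g', ⟨Bg.mfa.1 c1, Bg.fsl.1 c2⟩, (Bz.anvR fr e).ana,
      fun C f hC hf => ?_⟩, l, m, k⟩
  obtain ⟨z, c, e⟩ := L22.bk r' (e.lin C f hC hf)
  refine ⟨z, fun v _ => (e v).trans (mul_le_mul_of_nonneg_left ?_ c)⟩
  rw [pow_one]
  exact norm_sub_le _ _

/-- **the witness** -/
theorem wir : ∃ (H : Type) (_ : NormedAddCommGroup H) (_ : InnerProductSpace ℂ H)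
    (_ : CompleteSpace H), Dh.Wir H := by
  obtain ⟨E, _, _, Q, P, T, N, J, B, ⟨g, a, p⟩, r, o, v, w, m, ⟨n1, n2, n3⟩, ⟨e1, e2, e3⟩,
    ⟨s1, s2, s3, s4, s5⟩, b, ⟨f, t, z⟩, i, g', u, y⟩ := wiy
  have d : DenseRange (Completion.toComplₗᵢ (𝕜 := ℂ) (E := E)) := Completion.denseRange_coe
  have q := Z.gr.2 g
  have l := frame_lk q rfl n1.1
  have R := sys_rl l q d
  have l' : Lk _ _ _ P.vac id P.U := ⟨l.1, l.2, l.3.trans (congrArg _ s1.1), l.4,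
    fun s L a v hs hL => (l.5 s L a v hs hL).trans (by rw [s1.2])⟩
  have q' := Z.gr.2 s2
  have R' := sys_rl l' q' d
  have c : ∀ v : E, LinearIsometryEquiv.refl ℂ (Completion E) v =
    Completion.toComplₗᵢ (𝕜 := ℂ) v := fun _ => rfl
  have n : ∀ O X, X ∈ N O ↔ (LinearIsometryEquiv.refl ℂ (Completion E)).conjStarAlgEquiv X ∈ N O :=
    fun _ _ => Iff.rfl
  have e := (R.cg c).2 n1.1
  have x := fun m n => up_eqv Completion.toComplₗᵢ (T m n)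
  have s := fun {A} a => sys_up l q d (Q.bose_fld A a)
  have o' := (R.uniq c).2 o
  have k := (R.aff c n).2 (Z.aff.2 n2)
  have k' := (R.net c n e).2 (Z.net.2 n1)
  have h := R.fin.2 ⟨Z.mfa.2 (mfa.2 m.1), Z.fsl.2 (fsl.2 m.2)⟩
  have j := R.dd h
  exact ⟨_, _, _, _, _, sys l q d, sys l' q' d, _, _, N, _,
    ⟨((R.stress x).2 ⟨Z.stress.2 a, fun m n => s (a.1 m n)⟩).1, (R.pgen x).2 (Z.pgen.2 p),
      .inr (uni _ o'), h, .net N ⟨k', .inl k⟩⟩, R.mxq_up c e r,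
    ((R.vir x fun m => up_eqv _ (J m)).2 ⟨Z.vir.2 v, fun m => s (v.1 m)⟩).1, o', R.cnt_up w,
    ⟨k', k, (R.rel c n e).2 (Z.rel.2 n3)⟩, ⟨(R.ebd j).2 e1, (R.fbt j x).2 e2, (R.sl c x).2 e3⟩,
    ⟨⟨rfl, fun C => Exists.imp fun _ p => ⟨s1.3 _ p.1, p.2⟩,
      R'.fin.2 ⟨Z.mfa.2 (mfa.2 s3.1), Z.fsl.2 (fsl.2 s3.2)⟩⟩, R'.ana.2 s4, (R.leb j R').2 s5⟩,
    R.scalar_up (up_eqv _ B) (s b.1) b,
    ⟨f, t, fun k => z (Completion.coe_injective E
      ((up_eq Completion.toComplₗᵢ B f _).symm.trans k))⟩, i, g', u, fun k => y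
      (Completion.coe_injective E ((R.tr x g' _ u).symm.trans k))⟩

end Vale.Agent.N352.H
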